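import Vale.Agent.P011.D4Y.H63.Mix
import Vale.Agent.P011N.D1.D4Y.Defs
import Vale.Agent.P011N.D1.D4Y.H553.Tran
import Vale.Agent.P011N.D1.D4Y.H68.AutI
import Vale.Agent.P011N.D1.D4Y.H691.Na

/-!
Version for big subgroups of `P011.D4Y.H63.Mix`.
-/

open NumberField

namespace Vale.Agent.P011.D4Y.H63

open Vale.Agent.P011.MPQ Vale.Agent.P011.D4 Vale.Agent.P011.D4.Oct Vale.Agent.P011.E6

open Vale.Agent.P011.D4X

variable {k L E : Type} [Field k] [NumberField k] [Field L] [NumberField L] [Field E]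
  [Algebra k L] [Algebra k E] [Algebra L E] [IsScalarTower k L E] [NeZero (2 : E)]
  {ρ σ ι : E ≃ₐ[k] E} {α : E} {a b c : kˣ} {q : Lˣ}
  (H : HyI ρ σ ι α a b c q)

include H

/-- The middle element. -/
theorem mid_memB (s : kˣ) (u : k) (D : kˣ) (w : Qt a b) (p : Qt (up L a) (q * up L b))
    (hDu : (D : k) = u ^ 2 - 4 * s) (hD : GoodD a b q (D : k))
    (hns : ∀ e : E, e * e ≠ algebraMap k E (D : k)) (hw0 : w.re = 0)
    (hw : w * w = (D : k) • 1) (hp0 : p.re = 0) (hp : p * p = algebraMap k L (D : k) • 1)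
    (g : OctL E a b c ≃ₗ[E] OctL E a b c) (hg : ∀ y, g y = (algebraMap k E (s : k))⁻¹ •
      zFI ρ α q ((1 / 2 : k) • (u • 1 + w)) ((1 / 2 : L) • (algebraMap k L u • 1 + p))
        (s ^ 2) y) : g ∈ RsIB ρ σ ι α a b c q := by
  obtain ⟨E1, O, _, _, _, _, _, _, _, _, _, _, _, _, _, _, _, _, ρ1, σ1, ι1, α1, ρ', σ', τ', ι',
    a1, b1, c1, q1, u1, φ, X⟩ := exists_kcxI H hD.1 hD.2.2.2.2 hns hw0 hw hp0 hp hD.2.2.1
  have hs0 : (s : k) ≠ 0 := s.ne_zero
  have hsL : algebraMap k L (s : k) ≠ 0 := (map_ne_zero _).2 hs0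
  have hDL : algebraMap k L (D : k) = algebraMap k L u ^ 2 - 4 * algebraMap k L (s : k) := by
    rw [hDu, map_sub, map_pow, map_mul, map_ofNat]
  have n0 : nrd ((1 / 2 : k) • (u • 1 + w)) = (s : k) := nrd_half hw0 hw hDu
  have n1 : nrd ((1 / 2 : L) • (algebraMap k L u • 1 + p)) = algebraMap k L (s : k) :=
    nrd_half hp0 hp hDL
  obtain ⟨z0, -, hz0κ, hz0⟩ := exists_zI (c := c) H ((1 / 2 : k) • (u • 1 + w))
    ((1 / 2 : L) • (algebraMap k L u • 1 + p)) (s ^ 2) (by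
      rw [n0, n1, ← IsScalarTower.algebraMap_apply, ρ.commutes, ρ.commutes,
        Units.val_pow_eq_pow_val, map_pow, map_pow]
      ring)
  set l : Lˣ := up L s⁻¹ with hl
  have hlv : (l : L) = (algebraMap k L (s : k))⁻¹ := by
    change algebraMap k L ((s⁻¹ : kˣ) : k) = _
    rw [Units.val_inv_eq_inv_val, map_inv₀]
  have hlE0 : algebraMap L E (l : L) = (algebraMap k E (s : k))⁻¹ := by
    rw [hlv, map_inv₀, ← IsScalarTower.algebraMap_apply]
  have hlE : ρ (algebraMap L E (l : L)) = (algebraMap k E (s : k))⁻¹ := by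
    rw [hlE0, map_inv₀, ρ.commutes]
  have hφ : ∀ z, kapI (φ z) = kapI z := fun z => kapI_eq ((X.kp z _).1 (isKapI_kapI z))
  have hgz : g = (H.scal l * z0 : ATI ρ σ ι α a b c q).1 := by
    apply LinearEquiv.ext
    intro y
    rw [hg]
    change _ = (H.scal l).1 (z0.1 y)
    rw [H.scal_apply, hz0, hlE]
  -- the multiplier
  have hk0 : kapI z0 = (up L s)⁻¹ := by
    apply kapI_eq
    apply hz0κ
    rw [n1]
    change algebraMap k L (s : k) * (((up L s)⁻¹ : Lˣ) : L) = 1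
    rw [Units.val_inv_eq_inv_val]
    exact mul_inv_cancel₀ hsL
  have hk1 : kapI (H.scal l) = up L s := by
    rw [kapI_scal H (n := (s⁻¹) ^ 3) (by
      rw [hlE0, map_inv₀, map_inv₀, ρ.commutes, ρ.commutes, Units.val_pow_eq_pow_val, map_pow,
        Units.val_inv_eq_inv_val, map_inv₀]
      ring)]
    apply Units.ext
    change (l : L) ^ 2 * (((up L (s⁻¹ ^ 3))⁻¹ : Lˣ) : L) = algebraMap k L (s : k)
    rw [Units.val_inv_eq_inv_val, hlv]
    change _ * (algebraMap k L ((s⁻¹ ^ 3 : kˣ) : k))⁻¹ = _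
    rw [Units.val_pow_eq_pow_val, Units.val_inv_eq_inv_val, map_pow, map_inv₀]
    field_simp
  have hk : kapI (H.scal l * z0 : ATI ρ σ ι α a b c q) = 1 := by
    rw [kapI_mul, hk0, hk1, mul_inv_cancel]
  rw [hgz]
  refine tran_RsIB φ hφ ?_
  -- the formula in the new model
  have hz : ∀ y, (H.scal l * z0 : ATI ρ σ ι α a b c q).1 y = ρ (algebraMap L E (l : L)) •
      zFI ρ α q ((1 / 2 * u : k) • 1 + (1 / 2 : k) • w)
        ((1 / 2 * algebraMap k L u : L) • 1 + (1 / 2 : L) • p) (s ^ 2) y := by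
    intro y
    have e1 : (1 / 2 : k) • (u • 1 + w) = (1 / 2 * u : k) • 1 + (1 / 2 : k) • w := by
      rw [smul_add, smul_smul]
    have e2 : (1 / 2 : L) • (algebraMap k L u • 1 + p) =
        (1 / 2 * algebraMap k L u : L) • 1 + (1 / 2 : L) • p := by
      rw [smul_add, smul_smul]
    rw [← e1, ← e2, ← hz0, ← H.scal_apply]
    rfl
  have h1 := X.zf _ _ _ _ _ _ _ hz
  refine autI_memB X.H1 (mem_GTI_of_kapI_one (by rw [hφ, hk])) ?_
  rw [h1, KCx.zFI_eq]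
  -- the quaternion
  obtain ⟨Y, hY⟩ : ∃ Y : Qt (up E1 a1) (up E1 b1), Y = psiL α1 q1
    ((1 / 2 * algebraMap k L u : L) • 1 + (1 / 2 : L) • ⟨0, 1, 0, 0⟩) := ⟨_, rfl⟩
  rw [← hY]
  have hYn : nrd Y = algebraMap k E1 (s : k) := by
    have e : ((up L a1 : Lˣ) : L) = algebraMap k L (u ^ 2 - 4 * s) := by
      rw [← hDu, ← X.ha1]
      rfl
    rw [hY, X.H1.nrd_psiL, D4X.KCx.nrd_i, e, IsScalarTower.algebraMap_apply k L E1]
    congr 1
    rw [map_sub, map_pow, map_mul, map_ofNat]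
    ring
  have hYe : Y = (1 / 2 * algebraMap k E1 u : E1) • 1 + (1 / 2 : E1) • ⟨0, 1, 0, 0⟩ := by
    rw [hY, D4X.KCx.psiL_add, D4X.KCx.psiL_smul, D4X.KCx.psiL_smul, D4X.KCx.psiL_one,
      D4X.KCx.psiL_i, map_mul, map_div₀, map_one, map_ofNat, ← IsScalarTower.algebraMap_apply]
  have hY1 : Y = ⟨1 / 2 * algebraMap k E1 u, 1 / 2, 0, 0⟩ := by
    rw [hYe]
    apply QuaternionAlgebra.ext
    · change 1 / 2 * algebraMap k E1 u * 1 + 1 / 2 * 0 = 1 / 2 * algebraMap k E1 u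
      ring
    · change 1 / 2 * algebraMap k E1 u * 0 + 1 / 2 * 1 = (1 / 2 : E1)
      ring
    · change 1 / 2 * algebraMap k E1 u * 0 + 1 / 2 * 0 = (0 : E1)
      ring
    · change 1 / 2 * algebraMap k E1 u * 0 + 1 / 2 * 0 = (0 : E1)
      ring
  have hYρ : qmap ρ1 Y = Y := by
    rw [hY1]
    apply QuaternionAlgebra.ext
    · change ρ1 (1 / 2 * algebraMap k E1 u) = 1 / 2 * algebraMap k E1 u
      rw [map_mul, map_div₀, map_one, map_ofNat, ρ1.commutes]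
    · change ρ1 (1 / 2) = 1 / 2
      rw [map_div₀, map_one, map_ofNat]
    · exact map_zero _
    · exact map_zero _
  have hcomm : Y * (⟨1 / 2, 1 / (2 * α1), 0, 0⟩ : Qt (up E1 a1) (up E1 b1)) =
      ⟨1 / 2, 1 / (2 * α1), 0, 0⟩ * Y := by
    rw [hY1]
    exact Mx.comm_diag _ _ _ _
  have hlE1 : ρ1 (algebraMap L E1 (l : L)) * nrd Y = 1 := by
    rw [hYn, hlv, map_inv₀, map_inv₀, ← IsScalarTower.algebraMap_apply, ρ1.commutes]
    exact inv_mul_cancel₀ ((map_ne_zero _).2 hs0)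
  apply Oct.ext
  · rw [fst_smul, fst_zFun, hYρ, hYρ]
    change ρ1 (algebraMap L E1 (l : L)) • (Y * ⟨1 / 2, 1 / (2 * α1), 0, 0⟩ * star Y) =
      ⟨1 / 2, 1 / (2 * α1), 0, 0⟩
    rw [hcomm, mul_assoc, mul_star_self', mul_smul_comm, mul_one, smul_smul, hlE1, one_smul]
  · rw [snd_smul, snd_zFun]
    change _ • (_ • (_ * (0 : Qt (up E1 a1) (up E1 b1)) * _)) = 0
    rw [mul_zero, zero_mul, smul_zero, smul_zero]

end Vale.Agent.P011.D4Y.H63
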